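import Vale.Agent.P224.R2.H567.Law
import Vale.Agent.P224.R2.H567.Sub

/-!
Certificate data in dimension 17: value terms and rows.
-/

namespace Vale.Agent.P224.R2.H567.C17

open Vale.Agent.P224.UE Vale.Agent.P224.POS Vale.Agent.P224.PO Vale.Agent.P224.R2.H567

noncomputable section

/-- rows, part 0: integer coefficient and term (family, e, i, j, d, k, l) -/
def rows0 : List (Int × HTerm) := [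
  (-2636056, ⟨0, -17, 0, 0, 0, 0, 0⟩),
  (-25342344, ⟨0, -15, 0, 0, 0, 0, 0⟩),
  (-159381664, ⟨0, -13, 0, 0, 0, 0, 0⟩),
  (-152172920, ⟨0, -11, 0, 0, 0, 0, 0⟩),
  (-2784020264, ⟨0, -9, 0, 0, 0, 0, 0⟩),
  (-1607807280, ⟨0, -7, 0, 0, 0, 0, 0⟩),
  (-7878255616, ⟨0, -5, 0, 0, 0, 0, 0⟩),
  (-24852507944, ⟨0, -3, 0, 0, 0, 0, 0⟩),
  (-6992993232, ⟨0, -1, 0, 0, 0, 0, 0⟩),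
  (909224, ⟨0, -17, 0, 0, 0, 1, 0⟩),
  (-188800120, ⟨0, -15, 0, 0, 0, 1, 0⟩),
  (2002676560, ⟨0, -13, 0, 0, 0, 1, 0⟩),
  (4979873208, ⟨0, -11, 0, 0, 0, 1, 0⟩),
  (-45003700696, ⟨0, -9, 0, 0, 0, 1, 0⟩),
  (58589314520, ⟨0, -7, 0, 0, 0, 1, 0⟩),
  (-3871364504, ⟨0, -5, 0, 0, 0, 1, 0⟩),
  (-22261886232, ⟨0, -3, 0, 0, 0, 1, 0⟩),
  (16156940096, ⟨0, -1, 0, 0, 0, 1, 0⟩),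
  (-215920, ⟨0, -17, 0, 0, 0, 2, 0⟩),
  (-1003936, ⟨0, -15, 0, 0, 0, 2, 0⟩),
  (-4841248, ⟨0, -13, 0, 0, 0, 2, 0⟩),
  (-18147544, ⟨0, -11, 0, 0, 0, 2, 0⟩),
  (-221551968, ⟨0, -9, 0, 0, 0, 2, 0⟩),
  (32359648, ⟨0, -7, 0, 0, 0, 2, 0⟩),
  (-271593672, ⟨0, -5, 0, 0, 0, 2, 0⟩),
  (-1742854560, ⟨0, -3, 0, 0, 0, 2, 0⟩),
  (265680, ⟨0, -17, 0, 0, 2, 0, 0⟩),
  (-40567072, ⟨0, -15, 0, 0, 2, 0, 0⟩),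
  (371975536, ⟨0, -13, 0, 0, 2, 0, 0⟩),
  (-767657048, ⟨0, -11, 0, 0, 2, 0, 0⟩),
  (-588851112, ⟨0, -9, 0, 0, 2, 0, 0⟩),
  (3007650576, ⟨0, -7, 0, 0, 2, 0, 0⟩),
  (-2539057960, ⟨0, -5, 0, 0, 2, 0, 0⟩),
  (797338440, ⟨0, -3, 0, 0, 2, 0, 0⟩),
  (99541280, ⟨0, -15, 0, 1, 1, 0, 0⟩),
  (-453204456, ⟨0, -13, 0, 1, 1, 0, 0⟩),
  (-553609696, ⟨0, -11, 0, 1, 1, 0, 0⟩),
  (5998861432, ⟨0, -9, 0, 1, 1, 0, 0⟩),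
  (-6833155000, ⟨0, -7, 0, 1, 1, 0, 0⟩),
  (-5472627840, ⟨0, -5, 0, 1, 1, 0, 0⟩),
  (8474991968, ⟨0, -3, 0, 1, 1, 0, 0⟩),
  (-57420328, ⟨0, -15, 0, 2, 0, 0, 0⟩),
  (427693800, ⟨0, -13, 0, 2, 0, 0, 0⟩),
  (-939435784, ⟨0, -11, 0, 2, 0, 0, 0⟩),
  (-746177200, ⟨0, -9, 0, 2, 0, 0, 0⟩),
  (3600017840, ⟨0, -7, 0, 2, 0, 0, 0⟩),
  (-2612203784, ⟨0, -5, 0, 2, 0, 0, 0⟩),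
  (566520144, ⟨0, -3, 0, 2, 0, 0, 0⟩),
  (238627656, ⟨0, -17, 1, 0, 1, 0, 0⟩),
  (287994784, ⟨0, -15, 1, 0, 1, 0, 0⟩),
  (-5093686920, ⟨0, -13, 1, 0, 1, 0, 0⟩),
  (-8815086624, ⟨0, -11, 1, 0, 1, 0, 0⟩),
  (24153319760, ⟨0, -9, 1, 0, 1, 0, 0⟩),
  (-16282136688, ⟨0, -7, 1, 0, 1, 0, 0⟩),
  (-2944513696, ⟨0, -5, 1, 0, 1, 0, 0⟩),
  (-5611648, ⟨0, -17, 1, 0, 1, 1, 0⟩),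
  (88565384, ⟨0, -15, 1, 0, 1, 1, 0⟩),
  (-256791448, ⟨0, -13, 1, 0, 1, 1, 0⟩),
  (338129824, ⟨0, -11, 1, 0, 1, 1, 0⟩),
  (156418400, ⟨0, -9, 1, 0, 1, 1, 0⟩),
  (-286820760, ⟨0, -17, 1, 1, 0, 0, 0⟩),
  (376275912, ⟨0, -15, 1, 1, 0, 0, 0⟩),
  (2274080592, ⟨0, -13, 1, 1, 0, 0, 0⟩),
  (-7393524392, ⟨0, -11, 1, 1, 0, 0, 0⟩),
  (11667121152, ⟨0, -9, 1, 1, 0, 0, 0⟩),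
  (-38232950984, ⟨0, -7, 1, 1, 0, 0, 0⟩),
  (55276409784, ⟨0, -5, 1, 1, 0, 0, 0⟩),
  (6390992, ⟨0, -17, 1, 1, 0, 1, 0⟩),
  (17648432, ⟨0, -15, 1, 1, 0, 1, 0⟩),
  (-389756400, ⟨0, -13, 1, 1, 0, 1, 0⟩),
  (1280300976, ⟨0, -11, 1, 1, 0, 1, 0⟩),
  (-1168648992, ⟨0, -9, 1, 1, 0, 1, 0⟩),
  (2948504, ⟨0, -17, 2, 0, 0, 0, 0⟩),
  (74745656, ⟨0, -15, 2, 0, 0, 0, 0⟩),
  (-148690360, ⟨0, -13, 2, 0, 0, 0, 0⟩),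
  (-174276424, ⟨0, -11, 2, 0, 0, 0, 0⟩),
  (7726218544, ⟨0, -9, 2, 0, 0, 0, 0⟩),
  (-2585520, ⟨0, -17, 2, 0, 0, 1, 0⟩),
  (-19084632, ⟨0, -15, 2, 0, 0, 1, 0⟩),
  (-28703416, ⟨0, -13, 2, 0, 0, 1, 0⟩),
  (-1575704, ⟨1, -15, 0, 0, 1, 1, 0⟩),
  (76945352, ⟨1, -13, 0, 0, 1, 1, 0⟩),
  (-380461576, ⟨1, -11, 0, 0, 1, 1, 0⟩),
  (445530936, ⟨1, -9, 0, 0, 1, 1, 0⟩),
  (869974864, ⟨1, -7, 0, 0, 1, 1, 0⟩),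
  (-1035948272, ⟨1, -5, 0, 0, 1, 1, 0⟩),
  (529697824, ⟨1, -3, 0, 0, 1, 1, 0⟩),
  (25709200, ⟨1, -15, 0, 1, 0, 0, 0⟩),
  (-358860824, ⟨1, -13, 0, 1, 0, 0, 0⟩),
  (4545570400, ⟨1, -11, 0, 1, 0, 0, 0⟩),
  (-27548911512, ⟨1, -9, 0, 1, 0, 0, 0⟩),
  (89004175656, ⟨1, -7, 0, 1, 0, 0, 0⟩),
  (-156647349152, ⟨1, -5, 0, 1, 0, 0, 0⟩),
  (141289765904, ⟨1, -3, 0, 1, 0, 0, 0⟩),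
  (-50991795216, ⟨1, -1, 0, 1, 0, 0, 0⟩),
  (1811096, ⟨1, -15, 0, 1, 0, 1, 0⟩),
  (-79938504, ⟨1, -13, 0, 1, 0, 1, 0⟩),
  (314888544, ⟨1, -11, 0, 1, 0, 1, 0⟩),
  (42700184, ⟨1, -9, 0, 1, 0, 1, 0⟩),
  (-2489773136, ⟨1, -7, 0, 1, 0, 1, 0⟩),
  (2579870328, ⟨1, -5, 0, 1, 0, 1, 0⟩),
  (-3214619560, ⟨1, -3, 0, 1, 0, 1, 0⟩),
  (-2893056, ⟨1, -15, 1, 0, 0, 0, 0⟩),
  (-83419072, ⟨1, -13, 1, 0, 0, 0, 0⟩),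
  (1203965600, ⟨1, -11, 1, 0, 0, 0, 0⟩),
  (-8714792432, ⟨1, -9, 1, 0, 0, 0, 0⟩),
  (16583264792, ⟨1, -7, 1, 0, 0, 0, 0⟩),
  (-9191251328, ⟨1, -5, 1, 0, 0, 0, 0⟩),
  (-1347734312, ⟨1, -3, 1, 0, 0, 0, 0⟩),
  (-8744477912, ⟨1, -1, 1, 0, 0, 0, 0⟩),
  (1348728, ⟨1, -15, 1, 0, 0, 1, 0⟩),
  (26186552, ⟨1, -13, 1, 0, 0, 1, 0⟩),
  (-299179680, ⟨1, -11, 1, 0, 0, 1, 0⟩),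
  (872016248, ⟨1, -9, 1, 0, 0, 1, 0⟩),
  (-1530662568, ⟨1, -7, 1, 0, 0, 1, 0⟩),
  (1841500632, ⟨1, -5, 1, 0, 0, 1, 0⟩),
  (-353912, ⟨1, -15, 1, 0, 0, 2, 0⟩),
  (6694808, ⟨1, -13, 1, 0, 0, 2, 0⟩),
  (-23797296, ⟨1, -11, 1, 0, 0, 2, 0⟩),
  (17924984, ⟨1, -9, 1, 0, 0, 2, 0⟩)]

/-- rows, part 1: integer coefficient and term (family, e, i, j, d, k, l) -/
def rows1 : List (Int × HTerm) := [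
  (-33729368, ⟨1, -15, 1, 0, 2, 0, 0⟩),
  (153210448, ⟨1, -13, 1, 0, 2, 0, 0⟩),
  (-384604664, ⟨1, -11, 1, 0, 2, 0, 0⟩),
  (-30585424, ⟨1, -9, 1, 0, 2, 0, 0⟩),
  (6521096, ⟨1, -15, 1, 1, 1, 0, 0⟩),
  (14274184, ⟨1, -13, 1, 1, 1, 0, 0⟩),
  (136005824, ⟨1, -11, 1, 1, 1, 0, 0⟩),
  (-79283960, ⟨1, -9, 1, 1, 1, 0, 0⟩),
  (27165776, ⟨1, -15, 1, 2, 0, 0, 0⟩),
  (-183397672, ⟨1, -13, 1, 2, 0, 0, 0⟩),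
  (199394240, ⟨1, -11, 1, 2, 0, 0, 0⟩),
  (156165496, ⟨1, -9, 1, 2, 0, 0, 0⟩),
  (-2198384, ⟨1, -17, 2, 0, 1, 0, 0⟩),
  (7012592, ⟨1, -15, 2, 0, 1, 0, 0⟩),
  (-35915064, ⟨1, -13, 2, 0, 1, 0, 0⟩),
  (2229368, ⟨1, -17, 2, 1, 0, 0, 0⟩),
  (-8412536, ⟨1, -15, 2, 1, 0, 0, 0⟩),
  (37006064, ⟨1, -13, 2, 1, 0, 0, 0⟩),
  (-125697488, ⟨2, -13, 0, 0, 1, 0, 0⟩),
  (2079795128, ⟨2, -11, 0, 0, 1, 0, 0⟩),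
  (-10518922384, ⟨2, -9, 0, 0, 1, 0, 0⟩),
  (20762104608, ⟨2, -7, 0, 0, 1, 0, 0⟩),
  (-7640781344, ⟨2, -5, 0, 0, 1, 0, 0⟩),
  (-21480703512, ⟨2, -3, 0, 0, 1, 0, 0⟩),
  (18268273320, ⟨2, -1, 0, 0, 1, 0, 0⟩),
  (-5360944, ⟨2, -13, 0, 1, 0, 0, 0⟩),
  (-225018832, ⟨2, -11, 0, 1, 0, 0, 0⟩),
  (2985579096, ⟨2, -9, 0, 1, 0, 0, 0⟩),
  (-11001660184, ⟨2, -7, 0, 1, 0, 0, 0⟩),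
  (15099332600, ⟨2, -5, 0, 1, 0, 0, 0⟩),
  (-6815778496, ⟨2, -3, 0, 1, 0, 0, 0⟩),
  (-129673712, ⟨2, -1, 0, 1, 0, 0, 0⟩),
  (-66148824, ⟨2, -15, 1, 0, 0, 0, 0⟩),
  (107549440, ⟨2, -13, 1, 0, 0, 0, 0⟩),
  (548884880, ⟨2, -11, 1, 0, 0, 0, 0⟩),
  (1271179896, ⟨2, -9, 1, 0, 0, 0, 0⟩),
  (-11449256488, ⟨2, -7, 1, 0, 0, 0, 0⟩),
  (-5348990240, ⟨2, -5, 1, 0, 0, 0, 0⟩),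
  (1371412912, ⟨2, -3, 1, 0, 0, 0, 0⟩),
  (38126246048, ⟨2, -1, 1, 0, 0, 0, 0⟩),
  (-250232, ⟨2, -15, 1, 0, 0, 1, 0⟩),
  (63360248, ⟨2, -13, 1, 0, 0, 1, 0⟩),
  (-332344640, ⟨2, -11, 1, 0, 0, 1, 0⟩),
  (311438344, ⟨2, -9, 1, 0, 0, 1, 0⟩),
  (1447515296, ⟨2, -7, 1, 0, 0, 1, 0⟩),
  (-1106440928, ⟨2, -5, 1, 0, 0, 1, 0⟩),
  (2326240552, ⟨2, -3, 1, 0, 0, 1, 0⟩),
  (-4009512, ⟨2, -17, 2, 0, 1, 0, 0⟩),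
  (-42704792, ⟨2, -15, 2, 0, 1, 0, 0⟩),
  (566532008, ⟨2, -13, 2, 0, 1, 0, 0⟩),
  (-1823984736, ⟨2, -11, 2, 0, 1, 0, 0⟩),
  (1935113344, ⟨2, -9, 2, 0, 1, 0, 0⟩),
  (3697008, ⟨2, -17, 2, 1, 0, 0, 0⟩),
  (-54970896, ⟨2, -15, 2, 1, 0, 0, 0⟩),
  (95728776, ⟨2, -13, 2, 1, 0, 0, 0⟩),
  (352738064, ⟨2, -11, 2, 1, 0, 0, 0⟩),
  (-640091136, ⟨2, -9, 2, 1, 0, 0, 0⟩),
  (2626544, ⟨3, -17, 0, 0, 0, 0, 0⟩),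
  (19399440, ⟨3, -15, 0, 0, 0, 0, 0⟩),
  (52838088, ⟨3, -13, 0, 0, 0, 0, 0⟩),
  (627714448, ⟨3, -11, 0, 0, 0, 0, 0⟩),
  (-870797144, ⟨3, -9, 0, 0, 0, 0, 0⟩),
  (4082924832, ⟨3, -7, 0, 0, 0, 0, 0⟩),
  (3357690496, ⟨3, -5, 0, 0, 0, 0, 0⟩),
  (9968217768, ⟨3, -3, 0, 0, 0, 0, 0⟩),
  (4340258160, ⟨3, -1, 0, 0, 0, 0, 0⟩),
  (-910056, ⟨3, -17, 0, 0, 0, 1, 0⟩),
  (-2071984, ⟨3, -15, 0, 0, 0, 1, 0⟩),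
  (-63286104, ⟨3, -13, 0, 0, 0, 1, 0⟩),
  (536471144, ⟨3, -11, 0, 0, 0, 1, 0⟩),
  (-1585139928, ⟨3, -9, 0, 0, 0, 1, 0⟩),
  (3769968608, ⟨3, -7, 0, 0, 0, 1, 0⟩),
  (-5258857792, ⟨3, -5, 0, 0, 0, 1, 0⟩),
  (-537336208, ⟨3, -3, 0, 0, 0, 1, 0⟩),
  (-426422136, ⟨3, -1, 0, 0, 0, 1, 0⟩),
  (19384, ⟨3, -17, 0, 0, 0, 2, 0⟩),
  (813240, ⟨3, -15, 0, 0, 0, 2, 0⟩),
  (-220976, ⟨3, -13, 0, 0, 0, 2, 0⟩),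
  (-14769536, ⟨3, -11, 0, 0, 0, 2, 0⟩),
  (54388800, ⟨3, -9, 0, 0, 0, 2, 0⟩),
  (-90374288, ⟨3, -7, 0, 0, 0, 2, 0⟩),
  (62832088, ⟨3, -5, 0, 0, 0, 2, 0⟩),
  (-326960, ⟨3, -17, 0, 0, 2, 0, 0⟩),
  (2179744, ⟨3, -15, 0, 0, 2, 0, 0⟩),
  (-425928, ⟨3, -15, 0, 1, 1, 0, 0⟩),
  (-34286264, ⟨3, -13, 0, 1, 1, 0, 0⟩),
  (159662640, ⟨3, -11, 0, 1, 1, 0, 0⟩),
  (-303084432, ⟨3, -9, 0, 1, 1, 0, 0⟩),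
  (228906952, ⟨3, -7, 0, 1, 1, 0, 0⟩),
  (-43101168, ⟨3, -5, 0, 1, 1, 0, 0⟩),
  (-5148568, ⟨3, -15, 0, 2, 0, 0, 0⟩),
  (36006176, ⟨3, -13, 0, 2, 0, 0, 0⟩),
  (-160665728, ⟨3, -11, 0, 2, 0, 0, 0⟩),
  (277474832, ⟨3, -9, 0, 2, 0, 0, 0⟩),
  (-192685880, ⟨3, -7, 0, 2, 0, 0, 0⟩),
  (32147200, ⟨3, -5, 0, 2, 0, 0, 0⟩),
  (9624624, ⟨3, -17, 1, 0, 1, 0, 0⟩),
  (-145570784, ⟨3, -15, 1, 0, 1, 0, 0⟩),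
  (1551387272, ⟨3, -13, 1, 0, 1, 0, 0⟩),
  (-2537765400, ⟨3, -11, 1, 0, 1, 0, 0⟩),
  (3985363256, ⟨3, -9, 1, 0, 1, 0, 0⟩),
  (-2847195112, ⟨3, -7, 1, 0, 1, 0, 0⟩),
  (-2247808, ⟨3, -17, 1, 0, 1, 1, 0⟩),
  (37091024, ⟨3, -15, 1, 0, 1, 1, 0⟩),
  (-98512736, ⟨3, -13, 1, 0, 1, 1, 0⟩),
  (17366280, ⟨3, -11, 1, 0, 1, 1, 0⟩),
  (38592720, ⟨3, -17, 1, 1, 0, 0, 0⟩),
  (131904904, ⟨3, -15, 1, 1, 0, 0, 0⟩),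
  (351100280, ⟨3, -13, 1, 1, 0, 0, 0⟩),
  (-2193883448, ⟨3, -11, 1, 1, 0, 0, 0⟩),
  (2391764408, ⟨3, -9, 1, 1, 0, 0, 0⟩),
  (-1343952240, ⟨3, -7, 1, 1, 0, 0, 0⟩),
  (2265584, ⟨3, -17, 1, 1, 0, 1, 0⟩),
  (-44985248, ⟨3, -15, 1, 1, 0, 1, 0⟩),
  (101688144, ⟨3, -13, 1, 1, 0, 1, 0⟩),
  (-43152320, ⟨3, -11, 1, 1, 0, 1, 0⟩),
  (-3035248, ⟨3, -17, 2, 0, 0, 0, 0⟩),
  (-64316744, ⟨3, -15, 2, 0, 0, 0, 0⟩),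
  (349968896, ⟨3, -13, 2, 0, 0, 0, 0⟩),
  (-1310001464, ⟨3, -11, 2, 0, 0, 0, 0⟩)]

/-- rows, part 2: integer coefficient and term (family, e, i, j, d, k, l) -/
def rows2 : List (Int × HTerm) := [
  (2693344, ⟨3, -17, 2, 0, 0, 1, 0⟩),
  (9362720, ⟨3, -15, 2, 0, 0, 1, 0⟩),
  (-202194128, ⟨4, -15, 0, 0, 0, 0, 0⟩),
  (1992530200, ⟨4, -13, 0, 0, 0, 0, 0⟩),
  (4182900704, ⟨4, -11, 0, 0, 0, 0, 0⟩),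
  (-44145576472, ⟨4, -9, 0, 0, 0, 0, 0⟩),
  (52734577440, ⟨4, -7, 0, 0, 0, 0, 0⟩),
  (-1724735688, ⟨4, -5, 0, 0, 0, 0, 0⟩),
  (-34165187656, ⟨4, -3, 0, 0, 0, 0, 0⟩),
  (12330293288, ⟨4, -1, 0, 0, 0, 0, 0⟩),
  (201168, ⟨4, -15, 0, 0, 0, 1, 0⟩),
  (4804800, ⟨4, -13, 0, 0, 0, 1, 0⟩),
  (1852288, ⟨4, -11, 0, 0, 0, 1, 0⟩),
  (45415592, ⟨4, -9, 0, 0, 0, 1, 0⟩),
  (132651256, ⟨4, -7, 0, 0, 0, 1, 0⟩),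
  (-86254432, ⟨4, -5, 0, 0, 0, 1, 0⟩),
  (830457288, ⟨4, -3, 0, 0, 0, 1, 0⟩),
  (-4900640, ⟨4, -1, 0, 0, 0, 1, 0⟩),
  (5196936, ⟨4, -17, 1, 0, 1, 0, 0⟩),
  (-69002688, ⟨4, -15, 1, 0, 1, 0, 0⟩),
  (157949928, ⟨4, -13, 1, 0, 1, 0, 0⟩),
  (-115735608, ⟨4, -11, 1, 0, 1, 0, 0⟩),
  (-249982344, ⟨4, -9, 1, 0, 1, 0, 0⟩),
  (-263440408, ⟨4, -7, 1, 0, 1, 0, 0⟩),
  (-200119976, ⟨4, -5, 1, 0, 1, 0, 0⟩),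
  (-3560504, ⟨4, -17, 1, 1, 0, 0, 0⟩),
  (63643904, ⟨4, -15, 1, 1, 0, 0, 0⟩),
  (-259293352, ⟨4, -13, 1, 1, 0, 0, 0⟩),
  (697885288, ⟨4, -11, 1, 1, 0, 0, 0⟩),
  (-1057661968, ⟨4, -9, 1, 1, 0, 0, 0⟩),
  (993484472, ⟨4, -7, 1, 1, 0, 0, 0⟩),
  (-347552520, ⟨4, -5, 1, 1, 0, 0, 0⟩),
  (-280722112, ⟨4, -17, 2, 0, 0, 0, 0⟩),
  (263785848, ⟨4, -15, 2, 0, 0, 0, 0⟩),
  (2923749416, ⟨4, -13, 2, 0, 0, 0, 0⟩),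
  (-2760789208, ⟨4, -11, 2, 0, 0, 0, 0⟩),
  (842366136, ⟨4, -9, 2, 0, 0, 0, 0⟩),
  (443839304, ⟨4, -7, 2, 0, 0, 0, 0⟩),
  (-3625568, ⟨4, -17, 2, 0, 0, 1, 0⟩),
  (51437216, ⟨4, -15, 2, 0, 0, 1, 0⟩),
  (-131165032, ⟨4, -13, 2, 0, 0, 1, 0⟩),
  (38370360, ⟨4, -11, 2, 0, 0, 1, 0⟩),
  (2317448, ⟨5, -13, 0, 0, 1, 0, 0⟩),
  (-3335024, ⟨5, -11, 0, 0, 1, 0, 0⟩),
  (25654024, ⟨5, -9, 0, 0, 1, 0, 0⟩),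
  (-95775032, ⟨5, -7, 0, 0, 1, 0, 0⟩),
  (185916248, ⟨5, -5, 0, 0, 1, 0, 0⟩),
  (-180045208, ⟨5, -3, 0, 0, 1, 0, 0⟩),
  (68588648, ⟨5, -1, 0, 0, 1, 0, 0⟩),
  (5744736, ⟨5, -13, 0, 1, 0, 0, 0⟩),
  (36739848, ⟨5, -11, 0, 1, 0, 0, 0⟩),
  (-282614192, ⟨5, -9, 0, 1, 0, 0, 0⟩),
  (1055092976, ⟨5, -7, 0, 1, 0, 0, 0⟩),
  (-2048121656, ⟨5, -5, 0, 1, 0, 0, 0⟩),
  (1983444128, ⟨5, -3, 0, 1, 0, 0, 0⟩),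
  (-755597768, ⟨5, -1, 0, 1, 0, 0, 0⟩),
  (-49119416, ⟨5, -15, 1, 0, 0, 0, 0⟩),
  (4716712, ⟨5, -13, 1, 0, 0, 0, 0⟩),
  (-42616904, ⟨5, -11, 1, 0, 0, 0, 0⟩),
  (164858112, ⟨5, -9, 1, 0, 0, 0, 0⟩),
  (-259526624, ⟨5, -7, 1, 0, 0, 0, 0⟩),
  (19819832, ⟨5, -5, 1, 0, 0, 0, 0⟩),
  (341962008, ⟨5, -3, 1, 0, 0, 0, 0⟩),
  (-242459248, ⟨5, -1, 1, 0, 0, 0, 0⟩),
  (-820040, ⟨5, -15, 1, 0, 0, 1, 0⟩),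
  (23941128, ⟨5, -13, 1, 0, 0, 1, 0⟩),
  (-106865192, ⟨5, -11, 1, 0, 0, 1, 0⟩),
  (219759656, ⟨5, -9, 1, 0, 0, 1, 0⟩),
  (-249703904, ⟨5, -7, 1, 0, 0, 1, 0⟩),
  (140886616, ⟨5, -5, 1, 0, 0, 1, 0⟩),
  (-233712, ⟨5, -17, 2, 0, 1, 0, 0⟩),
  (708640, ⟨5, -15, 2, 0, 1, 0, 0⟩),
  (-13908872, ⟨5, -13, 2, 0, 1, 0, 0⟩),
  (-4860592, ⟨5, -11, 2, 0, 1, 0, 0⟩),
  (417784, ⟨5, -17, 2, 1, 0, 0, 0⟩),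
  (1391480, ⟨5, -15, 2, 1, 0, 0, 0⟩),
  (23439928, ⟨5, -13, 2, 1, 0, 0, 0⟩),
  (-483560, ⟨5, -11, 2, 1, 0, 0, 0⟩)]

/-- the rows -/
def rows : List (Int × HTerm) := rows0 ++ rows1 ++ rows2

/-- the polynomial of the certificate (`8 D rr ^ 19` times the pointwise expression) -/
def P : PE := lhsH 17 19 776185401600 386075037600 (-355674261600) 0 40837305600 16400613600 0 (-38380053600) 0 rows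

set_option maxRecDepth 100000 in
lemma rows_ok_all : (rows.all fun x => x.2.ok 17) = true := by decide +kernel

set_option maxRecDepth 100000 in
lemma rows_e_all : (rows.all fun x => decide (0 ≤ ((19 : ℕ) : ℤ) + x.2.e - 2)) = true := by
  decide +kernel

lemma rows_e : ∀ x ∈ rows, 0 ≤ ((19 : ℕ) : ℤ) + x.2.e - 2 := fun x hx =>
  of_decide_eq_true (List.all_eq_true.1 rows_e_all x hx)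

/-- all rows are admissible -/
lemma rows_ok : ∀ cT ∈ rlH 1099511627776 rows, cT.2.ok 17 = true := by
  intro cT hcT
  unfold rlH at hcT
  obtain ⟨x, hx, rfl⟩ := List.mem_map.1 hcT
  exact List.all_eq_true.1 rows_ok_all x hx

/-- the pointwise inequality from the positivity of the polynomial -/
theorem pos_of {d : R9} (hd : d 0 < 1) (h : 0 ≤ PE.ev (vh d) P) :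
    0 ≤ W9 (((776185401600 : ℤ) : ℝ) / ((1099511627776 : ℤ) : ℝ)) (((386075037600 : ℤ) : ℝ) / ((1099511627776 : ℤ) : ℝ)) (((-355674261600 : ℤ) : ℝ) / ((1099511627776 : ℤ) : ℝ)) (((0 : ℤ) : ℝ) / ((1099511627776 : ℤ) : ℝ)) (((40837305600 : ℤ) : ℝ) / ((1099511627776 : ℤ) : ℝ)) (((16400613600 : ℤ) : ℝ) / ((1099511627776 : ℤ) : ℝ)) (((0 : ℤ) : ℝ) / ((1099511627776 : ℤ) : ℝ)) (((-38380053600 : ℤ) : ℝ) / ((1099511627776 : ℤ) : ℝ)) (((0 : ℤ) : ℝ) / ((1099511627776 : ℤ) : ℝ)) d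
      + hsum 17 (rlH 1099511627776 rows) d :=
  nonneg_of_lhsH hd 17 (K := 19) (D := 1099511627776) (by norm_num) 776185401600 386075037600 (-355674261600) 0 40837305600 16400613600 0 (-38380053600) 0 rows_e h

set_option maxRecDepth 100000 in
lemma val_chk : chk [] (PE.sub (lvU 17 rows) (qvU (-94134160) 32747040 (-4828112))) = true := by
  decide +kernel

end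

end Vale.Agent.P224.R2.H567.C17
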